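import Vale.Agent.Results.P368.AA_all_depths
import Vale.Agent.Results.P368.AA_all_depths_M
import Vale.Agent.Results.P368.AA_depth3_linear
import Vale.Agent.Results.P368.AA_depth4_exact
import Vale.Agent.Results.P368.AA_depth4_lastgate

open Vale.Agent.Lib.P368x

namespace Vale.Agent.Results.P368.A0_master

/-- Five bounds on the parity correlation of a circuit `C` on `N` qubits, of entangling depth
`d = C.steps.length`, with any gates, input positions and measured qubit. (1) All depths, in terms of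
`N`. (2) All depths, with `M` bounding the gates of every layer except the first two and the last.
(3) Depth at most three, no dependence on `N`. (4) Depth four, exact and near-exact parity. (5) Depth
four, with `M` bounding the gates of the third layer that meet the last gate on the measured qubit. -/
theorem result :
    (∀ (n N : ℕ) (C : Circuit N) (inp : Fin n ↪ Fin N) (q : Fin N),
      |correlation C inp q|
          ≤ 14 * Real.exp (-((N : ℝ) * ((n : ℝ) / (10 ^ 93 * N)) ^ (2 ^ (C.steps.length - 3)))) ∧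
        ∀ ε : ℝ, (∀ x : Fin n → Bool, 1 / 2 + ε ≤ probCorrect C inp q x) →
          ε ≤ 7 * Real.exp (-((N : ℝ) * ((n : ℝ) / (10 ^ 93 * N)) ^ (2 ^ (C.steps.length - 3))))) ∧
    (∀ (n N : ℕ) (C : Circuit N) (inp : Fin n ↪ Fin N) (q : Fin N) (M : ℕ), 1 ≤ M → n ≤ M →
      (∀ s ∈ (C.steps.drop 2).dropLast, s.1.gates.length ≤ M) →
      |correlation C inp q|
          ≤ 14 * Real.exp (-((M : ℝ) * ((n : ℝ) / (10 ^ 93 * M)) ^ (2 ^ (C.steps.length - 3)))) ∧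
        ∀ ε : ℝ, (∀ x : Fin n → Bool, 1 / 2 + ε ≤ probCorrect C inp q x) →
          ε ≤ 7 * Real.exp (-((M : ℝ) * ((n : ℝ) / (10 ^ 93 * M)) ^ (2 ^ (C.steps.length - 3))))) ∧
    (∀ (n N : ℕ) (C : Circuit N), C.steps.length ≤ 3 → ∀ (inp : Fin n ↪ Fin N) (q : Fin N),
      |correlation C inp q| ≤ 14 * Real.exp (-(n : ℝ) / 10 ^ 90) ∧
        ∀ ε : ℝ, (∀ x : Fin n → Bool, 1 / 2 + ε ≤ probCorrect C inp q x) →
          ε ≤ 7 * Real.exp (-(n : ℝ) / 10 ^ 90)) ∧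
    (∀ (n N : ℕ) (V₁ V₂ V₃ V₄ V₅ : OneQubitLayer N) (L₁ L₂ L₃ L₄ : Layer N)
      (inp : Fin n ↪ Fin N) (q : Fin N),
      ((∀ x : Fin n → Bool,
            probCorrect (⟨V₁, [(L₁, V₂), (L₂, V₃), (L₃, V₄), (L₄, V₅)]⟩ : Circuit N) inp q x = 1) →
          (n : ℝ) / 10 ^ 90 * Real.exp ((n : ℝ) / (4 * 10 ^ 90)) ≤ 4600 * N) ∧
      ∀ M : ℕ, 1 ≤ M → n ≤ M →
        (∀ g ∈ L₄.gates, q ∈ g.support →
          (L₃.gates.filter fun h => ¬ Disjoint h.support g.support).length ≤ M) →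
        (n : ℝ) / 10 ^ 90 ≤ (M : ℝ) *
            (161 * (1 - correlation (⟨V₁, [(L₁, V₂), (L₂, V₃), (L₃, V₄), (L₄, V₅)]⟩ : Circuit N) inp q)
              + 4600 * Real.exp (-((n : ℝ) / (4 * 10 ^ 90)))) ∧
          ∀ δ : ℝ, (∀ x : Fin n → Bool,
              1 - δ ≤ probCorrect (⟨V₁, [(L₁, V₂), (L₂, V₃), (L₃, V₄), (L₄, V₅)]⟩ : Circuit N) inp q x) →
            (n : ℝ) / 10 ^ 90 ≤ (M : ℝ) * (322 * δ + 4600 * Real.exp (-((n : ℝ) / (4 * 10 ^ 90))))) ∧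
    (∀ (n N : ℕ) (V₁ V₂ V₃ V₄ V₅ : OneQubitLayer N) (L₁ L₂ L₃ L₄ : Layer N)
      (inp : Fin n ↪ Fin N) (q : Fin N) (M : ℕ), 1 ≤ M → n ≤ M →
      (∀ g ∈ L₄.gates, q ∈ g.support →
        (L₃.gates.filter fun h => ¬ Disjoint h.support g.support).length ≤ M) →
      |correlation (⟨V₁, [(L₁, V₂), (L₂, V₃), (L₃, V₄), (L₄, V₅)]⟩ : Circuit N) inp q|
          ≤ 14 * Real.exp (-((n : ℝ) ^ 2 / (10 ^ 186 * M))) ∧
        ∀ ε : ℝ, (∀ x : Fin n → Bool,
            1 / 2 + ε ≤ probCorrect (⟨V₁, [(L₁, V₂), (L₂, V₃), (L₃, V₄), (L₄, V₅)]⟩ : Circuit N) inp q x) →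
          ε ≤ 7 * Real.exp (-((n : ℝ) ^ 2 / (10 ^ 186 * M)))) :=
  ⟨fun _ _ C inp q => Vale.Agent.Results.P368.AA_all_depths.result C inp q,
    fun _ _ C inp q M hM hn hmid => Vale.Agent.Results.P368.AA_all_depths_M.result C inp q M hM hn hmid,
    fun _ _ C hC inp q => Vale.Agent.Results.P368.AA_depth3_linear.result C hC inp q,
    fun _ _ V₁ V₂ V₃ V₄ V₅ L₁ L₂ L₃ L₄ inp q =>
      Vale.Agent.Results.P368.AA_depth4_exact.result V₁ V₂ V₃ V₄ V₅ L₁ L₂ L₃ L₄ inp q,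
    fun _ _ V₁ V₂ V₃ V₄ V₅ L₁ L₂ L₃ L₄ inp q M hM hn h =>
      Vale.Agent.Results.P368.AA_depth4_lastgate.result V₁ V₂ V₃ V₄ V₅ L₁ L₂ L₃ L₄ inp q M hM hn h⟩

end Vale.Agent.Results.P368.A0_master
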