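import Vale.Agent.Lib.P368z.Corollaries

open Vale.Agent.Lib.P368x

namespace Vale.Agent.Results.P368.AB_any_depth

/-- For every circuit of any entangling depth, the parity correlation is at most
`63 exp(-n / (10^90 · P))` in absolute value, where `P` is the product, over all entangling layers
except the first two and the last, of `18 √(max 2 (number of gates of the layer))`; a worst-case
advantage `ε` forces `ε ≤ (63/2) exp(-n / (10^90 · P))`. -/
theorem result {n N : ℕ} (C : Circuit N) (inp : Fin n ↪ Fin N) (q : Fin N) :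
    |correlation C inp q| ≤ 63 * Real.exp (-(n : ℝ) / (10 ^ 90 *
        (((C.steps.drop 2).dropLast).map fun s =>
          18 * Real.sqrt ((max 2 s.1.gates.length : ℕ) : ℝ)).prod)) ∧
      ∀ ε : ℝ, (∀ x : Fin n → Bool, 1 / 2 + ε ≤ probCorrect C inp q x) →
        ε ≤ 63 / 2 * Real.exp (-(n : ℝ) / (10 ^ 90 *
        (((C.steps.drop 2).dropLast).map fun s =>
          18 * Real.sqrt ((max 2 s.1.gates.length : ℕ) : ℝ)).prod)) := by
  obtain ⟨hu, hb⟩ := Vale.Agent.Lib.P368z.any_depth C inp q
  rw [← neg_div] at hb
  refine ⟨hb, fun ε h => ?_⟩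
  have h1 := advantage_le_correlation C hu inp q ε h
  have h2 := le_abs_self (correlation C inp q)
  have h3 : ε ≤ 63 / 2 * Real.exp (-(n : ℝ) / (10 ^ 90 *
      (((C.steps.drop 2).dropLast).map Vale.Agent.Lib.P368z.rateOf).prod)) := by
    linarith
  exact h3

end Vale.Agent.Results.P368.AB_any_depth
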