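import Vale.Agent.Lib.P368z.Corollaries

open Vale.Agent.Lib.P368x

namespace Vale.Agent.Results.P368.AC_last_gate

/-- A circuit with four entangling layers `L₁, L₂, L₃, L₄`. If every gate of `L₄` on the measured
qubit shares a qubit with at most `M ≥ 2` gates of `L₃`, then the parity correlation is at most
`63 exp(-n / (18 · 10^90 · √M))` in absolute value, and a worst-case advantage `ε` forces
`ε ≤ (63/2) exp(-n / (18 · 10^90 · √M))`. -/
theorem result {n N : ℕ} (V₁ V₂ V₃ V₄ V₅ : OneQubitLayer N) (L₁ L₂ L₃ L₄ : Layer N)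
    (inp : Fin n ↪ Fin N) (q : Fin N) (M : ℕ) (hM : 2 ≤ M)
    (hcount : ∀ g ∈ L₄.gates, q ∈ g.support →
      (L₃.gates.filter fun h => ¬ Disjoint h.support g.support).length ≤ M) :
    |correlation (⟨V₁, [(L₁, V₂), (L₂, V₃), (L₃, V₄), (L₄, V₅)]⟩ : Circuit N) inp q|
        ≤ 63 * Real.exp (-(n : ℝ) / (18 * 10 ^ 90 * Real.sqrt M)) ∧
      ∀ ε : ℝ, (∀ x : Fin n → Bool,
          1 / 2 + ε ≤ probCorrect (⟨V₁, [(L₁, V₂), (L₂, V₃), (L₃, V₄), (L₄, V₅)]⟩ : Circuit N) inp q x) →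
        ε ≤ 63 / 2 * Real.exp (-(n : ℝ) / (18 * 10 ^ 90 * Real.sqrt M)) := by
  obtain ⟨hu, hb⟩ := Vale.Agent.Lib.P368z.depth_four_last V₁ V₂ V₃ V₄ V₅ L₁ L₂ L₃ L₄ inp q M hM hcount
  rw [← neg_div] at hb
  refine ⟨hb, fun ε h => ?_⟩
  have h1 := advantage_le_correlation _ hu inp q ε h
  have h2 := le_abs_self (correlation (⟨V₁, [(L₁, V₂), (L₂, V₃), (L₃, V₄), (L₄, V₅)]⟩ : Circuit N) inp q)
  linarith

end Vale.Agent.Results.P368.AC_last_gate
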