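import Mathlib
import Vale.Agent.Lib.P368.Defs
import Vale.Agent.Lib.P368.Final

/-!
# Parity at entangling depth three

For circuits of entangling depth at most three, with any number of ancillas and gates, the
parity correlation is at most `216 * n ^ (-1/100)`.  In particular no such family computes parity
with a fixed worst-case advantage.
-/

namespace Vale.Agent.Results.P368.A_depth3

open Vale.Agent.Lib.P368

theorem correlation_bound {N n : ℕ} (hn1 : 1 ≤ n) (hn : n ≤ N) (c : Circuit N)
    (hc : c.entanglingDepth ≤ 3) (out : Fin N) :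
    |parityCorrelation n c out| ≤ 216 * (n : ℝ) ^ (-(1 / 100 : ℝ)) := by
  have h1 := corr_depth3 hn hn1 c hc out
  have h2 := log_power_bound hn1 (n := n)
  linarith

theorem advantage_le {N n : ℕ} (c : Circuit N) (hc : c.entanglingDepth ≤ 3) (out : Fin N) {ε : ℝ}
    (h : ComputesParityWithAdvantage n c out ε) : 2 * ε ≤ parityCorrelation n c out := by
  unfold parityCorrelation
  have hterm : ∀ x : Fin n → Bool, 2 * ε
      ≤ outcomeProb c out x (parityBit x) - outcomeProb c out x (!parityBit x) := by
    intro x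
    have h1 := h x
    have h2 := outcome_total c hc out x
    cases hp : parityBit x <;> rw [hp] at h1 <;> simp only [Bool.not_false, Bool.not_true] <;> linarith
  have hsum : ∑ _x : Fin n → Bool, (2 * ε)
      ≤ ∑ x : Fin n → Bool, (outcomeProb c out x (parityBit x) - outcomeProb c out x (!parityBit x)) :=
    Finset.sum_le_sum fun x _ => hterm x
  simp only [Finset.sum_const, Finset.card_univ, Fintype.card_fun, Fintype.card_bool, Fintype.card_fin,
    nsmul_eq_mul] at hsum
  have h6 : (((2 ^ n : ℕ) : ℝ)) = (2 : ℝ) ^ n := by push_cast; rfl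
  rw [h6] at hsum
  have h7 := mul_le_mul_of_nonneg_left hsum (by positivity : (0 : ℝ) ≤ ((2 : ℝ) ^ n)⁻¹)
  rw [← mul_assoc, inv_mul_cancel₀ (by positivity), one_mul] at h7
  exact h7

/-- Parity correlation at entangling depth at most three is at most `216 n ^ (-1/100)`, whatever
the number of ancillas and gates; and for every `ε > 0`, for all large `n`, no circuit of entangling
depth at most three computes parity on `n` bits with worst-case advantage `ε`. -/
theorem result :
    (∀ (N n : ℕ), 1 ≤ n → n ≤ N → ∀ (c : Circuit N), c.entanglingDepth ≤ 3 → ∀ out : Fin N,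
      |parityCorrelation n c out| ≤ 216 * (n : ℝ) ^ (-(1 / 100 : ℝ))) ∧
    (∀ ε : ℝ, 0 < ε → ∃ n₀ : ℕ, ∀ n : ℕ, n₀ ≤ n → ∀ N : ℕ, n ≤ N → ∀ c : Circuit N,
      c.entanglingDepth ≤ 3 → ∀ out : Fin N, ¬ ComputesParityWithAdvantage n c out ε) := by
  refine ⟨fun N n hn1 hn c hc out => correlation_bound hn1 hn c hc out, ?_⟩
  intro ε hε
  have hlim : Filter.Tendsto (fun n : ℕ => (n : ℝ) ^ (-(1 / 100 : ℝ))) Filter.atTop (nhds 0) :=
    (tendsto_rpow_neg_atTop (by norm_num : (0 : ℝ) < 1 / 100)).comp tendsto_natCast_atTop_atTop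
  have hev : ∀ᶠ n : ℕ in Filter.atTop, (n : ℝ) ^ (-(1 / 100 : ℝ)) < ε / 216 :=
    hlim.eventually_lt_const (by positivity)
  obtain ⟨n₁, hn₁⟩ := Filter.eventually_atTop.mp hev
  refine ⟨max n₁ 1, fun n hn N hnN c hc out hcomp => ?_⟩
  have h1 : 1 ≤ n := le_trans (le_max_right _ _) hn
  have h2 := hn₁ n (le_trans (le_max_left _ _) hn)
  have h3 := correlation_bound h1 hnN c hc out
  have h4 := advantage_le c hc out hcomp
  have h5 := le_abs_self (parityCorrelation n c out)
  have h6 : 216 * (n : ℝ) ^ (-(1 / 100 : ℝ)) < ε := by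
    have := mul_lt_mul_of_pos_left h2 (by norm_num : (0 : ℝ) < 216)
    have e : 216 * (ε / 216) = ε := by ring
    linarith
  linarith

end Vale.Agent.Results.P368.A_depth3
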