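import Vale.Agent.Lib.P368y.Top2

open Vale.Agent.Lib.P368x

namespace Vale.Agent.Results.P368.B_depth3_exp

/-- For every circuit of entangling depth at most three, with any number of qubits and gates,
the parity correlation is at most `120 exp(-n^(1/3) / (32 * 10^23))` in absolute value, and a
worst-case advantage `ε` forces `ε ≤ 60 exp(-n^(1/3) / (32 * 10^23))`. -/
theorem result {n N : ℕ} (C : Circuit N) (hC : C.steps.length ≤ 3) (inp : Fin n ↪ Fin N)
    (q : Fin N) :
    |correlation C inp q| ≤ 120 * Real.exp (-((n : ℝ) ^ ((1 : ℝ) / 3)) / (32 * 10 ^ 23)) ∧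
      ∀ ε : ℝ, (∀ x : Fin n → Bool, 1 / 2 + ε ≤ probCorrect C inp q x) →
        ε ≤ 60 * Real.exp (-((n : ℝ) ^ ((1 : ℝ) / 3)) / (32 * 10 ^ 23)) := by
  obtain ⟨hu, hb⟩ := Vale.Agent.Lib.P368y.depth_three_exp C hC inp q
  refine ⟨hb, fun ε h => ?_⟩
  have h1 := advantage_le_correlation C hu inp q ε h
  have h2 := le_abs_self (correlation C inp q)
  linarith

end Vale.Agent.Results.P368.B_depth3_exp
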