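import Vale.Agent.Lib.P368x.Depth2

open Vale.Agent.Lib.P368x

namespace Vale.Agent.Results.P368.C_depth2_exp

/-- For every circuit of entangling depth at most two, with any number of qubits and gates,
the parity correlation is at most `7 (6/7)^n` in absolute value, and a worst-case advantage
`ε` forces `ε ≤ (7/2) (6/7)^n`. -/
theorem result {n N : ℕ} (C : Circuit N) (hC : C.steps.length ≤ 2) (inp : Fin n ↪ Fin N)
    (q : Fin N) :
    |correlation C inp q| ≤ 7 * (6 / 7 : ℝ) ^ n ∧
      ∀ ε : ℝ, (∀ x : Fin n → Bool, 1 / 2 + ε ≤ probCorrect C inp q x) →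
        ε ≤ (7 / 2) * (6 / 7 : ℝ) ^ n := by
  obtain ⟨hu, hb⟩ := depth_two_bound C hC inp q
  refine ⟨hb, fun ε h => ?_⟩
  have h1 := advantage_le_correlation C hu inp q ε h
  have h2 := le_abs_self (correlation C inp q)
  linarith

end Vale.Agent.Results.P368.C_depth2_exp
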